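import Mathlib

-- ▼ part N337/Op/Basic
section

/-!
# Row 337: operator calculus on finite probability spaces

Kernels `k : Ω → Ω → ℝ` act by `ap k f`.  `Ker μ k`: fixes constants and `μ`;
`Proj μ k`: orthogonal projection of `L²(μ)` fixing constants (null states allowed).
`var_le_word`: if a word of projections contracts mean-zero functions, the variance is bounded by
the residuals `nsq μ (f - ap k f)`.
-/

set_option autoImplicit false
set_option linter.unusedSectionVars false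

namespace Crest.Agent.N337.Op

open Finset

variable {Ω : Type} [Fintype Ω] [DecidableEq Ω]

/-- probability vector. -/
structure Pr (μ : Ω → ℝ) : Prop where
  nn : ∀ ω, 0 ≤ μ ω
  one : ∑ ω, μ ω = 1

def ex (μ f : Ω → ℝ) : ℝ := ∑ ω, μ ω * f ω
def ip (μ f g : Ω → ℝ) : ℝ := ∑ ω, μ ω * (f ω * g ω)
def nsq (μ f : Ω → ℝ) : ℝ := ∑ ω, μ ω * f ω ^ 2
def var (μ f : Ω → ℝ) : ℝ := nsq μ fun ω => f ω - ex μ f
noncomputable def nrm (μ f : Ω → ℝ) : ℝ := Real.sqrt (nsq μ f)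

/-- action of a kernel. -/
def ap (k : Ω → Ω → ℝ) (f : Ω → ℝ) : Ω → ℝ := fun ω => ∑ ω', k ω ω' * f ω'
/-- `ap (comp k l) = ap k ∘ ap l`. -/
def comp (k l : Ω → Ω → ℝ) : Ω → Ω → ℝ := fun ω ω'' => ∑ ω', k ω ω' * l ω' ω''
def idk : Ω → Ω → ℝ := fun ω ω' => if ω = ω' then 1 else 0
/-- the kernel of the expectation. -/
def ek (μ : Ω → ℝ) : Ω → Ω → ℝ := fun _ ω' => μ ω'
/-- product of a list of kernels (the last one acts first). -/
def word : List (Ω → Ω → ℝ) → Ω → Ω → ℝ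
  | [] => idk
  | k :: l => comp k (word l)

/-- fixes the constants and the measure. -/
structure Ker (μ : Ω → ℝ) (k : Ω → Ω → ℝ) : Prop where
  one : ∀ ω, ∑ ω', k ω ω' = 1
  inv : ∀ ω', ∑ ω, μ ω * k ω ω' = μ ω'

/-- orthogonal projection fixing the constants. -/
structure Proj (μ : Ω → ℝ) (k : Ω → Ω → ℝ) : Prop where
  one : ∀ ω, ∑ ω', k ω ω' = 1
  rev : ∀ ω ω', μ ω * k ω ω' = μ ω' * k ω' ω
  idem : ∀ ω ω', μ ω * comp k k ω ω' = μ ω * k ω ω'

/-- `k` has norm `≤ δ` on mean-zero functions. -/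
def Con (μ : Ω → ℝ) (k : Ω → Ω → ℝ) (δ : ℝ) : Prop :=
  ∀ f, ex μ f = 0 → nsq μ (ap k f) ≤ δ ^ 2 * nsq μ f

/-- `k` has norm `≤ 1`. -/
def Ctr (μ : Ω → ℝ) (k : Ω → Ω → ℝ) : Prop := ∀ f, nsq μ (ap k f) ≤ nsq μ f

variable {μ : Ω → ℝ} {k l : Ω → Ω → ℝ} {f g : Ω → ℝ}

lemma ap_comp (k l : Ω → Ω → ℝ) (f : Ω → ℝ) : ap (comp k l) f = ap k (ap l f) := by
  funext ω
  simp only [ap, comp, sum_mul, mul_sum, mul_assoc]
  exact sum_comm

@[simp] lemma ap_idk (f : Ω → ℝ) : ap idk f = f := by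
  funext ω; simp [ap, idk]

lemma ap_ek (μ f : Ω → ℝ) : ap (ek μ) f = fun _ => ex μ f := rfl


@[simp] lemma comp_idk (k : Ω → Ω → ℝ) : comp k idk = k := by
  funext ω ω'; simp [comp, idk]

@[simp] lemma idk_comp (k : Ω → Ω → ℝ) : comp idk k = k := by
  funext ω ω'; simp [comp, idk]

lemma ap_add (k : Ω → Ω → ℝ) (f g : Ω → ℝ) :
    ap k (fun ω => f ω + g ω) = fun ω => ap k f ω + ap k g ω := by
  funext ω; simp only [ap, mul_add, sum_add_distrib]

lemma ap_sub (k : Ω → Ω → ℝ) (f g : Ω → ℝ) :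
    ap k (fun ω => f ω - g ω) = fun ω => ap k f ω - ap k g ω := by
  funext ω; simp only [ap, mul_sub, sum_sub_distrib]


lemma ap_const (h : ∀ ω, ∑ ω', k ω ω' = 1) (a : ℝ) : ap k (fun _ => a) = fun _ => a := by
  funext ω; simp only [ap, ← sum_mul, h, one_mul]

lemma ex_add (f g : Ω → ℝ) : ex μ (fun ω => f ω + g ω) = ex μ f + ex μ g := by
  simp only [ex, mul_add, sum_add_distrib]

lemma ex_sub (f g : Ω → ℝ) : ex μ (fun ω => f ω - g ω) = ex μ f - ex μ g := by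
  simp only [ex, mul_sub, sum_sub_distrib]

lemma ex_mul (a : ℝ) (f : Ω → ℝ) : ex μ (fun ω => a * f ω) = a * ex μ f := by
  simp only [ex, mul_sum]; exact sum_congr rfl fun _ _ => by ring

lemma Pr.ex_const (hμ : Pr μ) (a : ℝ) : ex μ (fun _ => a) = a := by
  simp only [ex, ← sum_mul, hμ.one, one_mul]

lemma ex_mono (hμ : ∀ ω, 0 ≤ μ ω) (h : ∀ ω, f ω ≤ g ω) : ex μ f ≤ ex μ g :=
  sum_le_sum fun ω _ => mul_le_mul_of_nonneg_left (h ω) (hμ ω)

lemma ex_nn (hμ : ∀ ω, 0 ≤ μ ω) (h : ∀ ω, 0 ≤ f ω) : 0 ≤ ex μ f :=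
  sum_nonneg fun ω _ => mul_nonneg (hμ ω) (h ω)

lemma nsq_eq_ex (μ f : Ω → ℝ) : nsq μ f = ex μ fun ω => f ω ^ 2 := rfl
lemma ip_eq_ex (μ f g : Ω → ℝ) : ip μ f g = ex μ fun ω => f ω * g ω := rfl
lemma ip_self (μ f : Ω → ℝ) : ip μ f f = nsq μ f := by simp only [ip, nsq, sq]
lemma ip_comm (μ f g : Ω → ℝ) : ip μ f g = ip μ g f := by simp only [ip, mul_comm (f _)]

lemma nsq_nn (hμ : ∀ ω, 0 ≤ μ ω) (f : Ω → ℝ) : 0 ≤ nsq μ f :=
  sum_nonneg fun ω _ => mul_nonneg (hμ ω) (sq_nonneg _)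

lemma nsq_add (μ f g : Ω → ℝ) :
    nsq μ (fun ω => f ω + g ω) = nsq μ f + 2 * ip μ f g + nsq μ g := by
  simp only [nsq, ip, mul_sum, ← sum_add_distrib]; exact sum_congr rfl fun _ _ => by ring

lemma nsq_sub (μ f g : Ω → ℝ) :
    nsq μ (fun ω => f ω - g ω) = nsq μ f - 2 * ip μ f g + nsq μ g := by
  simp only [nsq, ip, mul_sum, ← sum_add_distrib, ← sum_sub_distrib]
  exact sum_congr rfl fun _ _ => by ring

lemma nsq_mul (μ : Ω → ℝ) (a : ℝ) (f : Ω → ℝ) : nsq μ (fun ω => a * f ω) = a ^ 2 * nsq μ f := by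
  simp only [nsq, mul_sum]; exact sum_congr rfl fun _ _ => by ring

lemma nsq_sub_comm (μ f g : Ω → ℝ) :
    nsq μ (fun ω => f ω - g ω) = nsq μ fun ω => g ω - f ω := by
  simp only [nsq]; exact sum_congr rfl fun _ _ => by ring

lemma ip_sub_right (μ f g h : Ω → ℝ) : ip μ f (fun ω => g ω - h ω) = ip μ f g - ip μ f h := by
  simp only [ip, mul_sub, sum_sub_distrib]


lemma ip_const (μ f : Ω → ℝ) (a : ℝ) : ip μ f (fun _ => a) = a * ex μ f := by
  simp only [ip, ex, mul_sum]; exact sum_congr rfl fun _ _ => by ring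

/-- Cauchy-Schwarz. -/
lemma cs (hμ : ∀ ω, 0 ≤ μ ω) (f g : Ω → ℝ) : ip μ f g ^ 2 ≤ nsq μ f * nsq μ g := by
  refine sum_sq_le_sum_mul_sum_of_sq_le_mul _ (fun ω _ => ?_) (fun ω _ => ?_) fun ω _ => ?_
  · exact mul_nonneg (hμ ω) (sq_nonneg _)
  · exact mul_nonneg (hμ ω) (sq_nonneg _)
  · exact le_of_eq (by ring)

lemma nrm_nn (μ f : Ω → ℝ) : 0 ≤ nrm μ f := Real.sqrt_nonneg _

lemma nrm_sq (hμ : ∀ ω, 0 ≤ μ ω) (f : Ω → ℝ) : nrm μ f ^ 2 = nsq μ f :=
  Real.sq_sqrt (nsq_nn hμ f)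

lemma nrm_le_iff (_hμ : ∀ ω, 0 ≤ μ ω) {a : ℝ} (ha : 0 ≤ a) : nrm μ f ≤ a ↔ nsq μ f ≤ a ^ 2 :=
  Real.sqrt_le_left ha

lemma nrm_le_mul (hμ : ∀ ω, 0 ≤ μ ω) {a : ℝ} (ha : 0 ≤ a) :
    nrm μ f ≤ a * nrm μ g ↔ nsq μ f ≤ a ^ 2 * nsq μ g := by
  rw [nrm_le_iff hμ (mul_nonneg ha (nrm_nn _ _)), mul_pow, nrm_sq hμ]

lemma nrm_mono (h : nsq μ f ≤ nsq μ g) : nrm μ f ≤ nrm μ g := Real.sqrt_le_sqrt h

lemma ip_le (hμ : ∀ ω, 0 ≤ μ ω) (f g : Ω → ℝ) : |ip μ f g| ≤ nrm μ f * nrm μ g := by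
  refine abs_le_of_sq_le_sq' ?_ (mul_nonneg (nrm_nn _ _) (nrm_nn _ _)) |> abs_le.2
  rw [mul_pow, nrm_sq hμ, nrm_sq hμ]; exact cs hμ f g

lemma nrm_add (hμ : ∀ ω, 0 ≤ μ ω) (f g : Ω → ℝ) :
    nrm μ (fun ω => f ω + g ω) ≤ nrm μ f + nrm μ g := by
  rw [nrm_le_iff hμ (add_nonneg (nrm_nn _ _) (nrm_nn _ _)), nsq_add, add_sq, nrm_sq hμ, nrm_sq hμ]
  have := (abs_le.1 (ip_le hμ f g)).2
  linarith

lemma nrm_sub_comm (μ f g : Ω → ℝ) : nrm μ (fun ω => f ω - g ω) = nrm μ fun ω => g ω - f ω := by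
  simp only [nrm, nsq_sub_comm μ f g]

/-- triangle inequality through a middle point. -/
lemma nrm_tri (hμ : ∀ ω, 0 ≤ μ ω) (f g h : Ω → ℝ) : nrm μ (fun ω => f ω - h ω) ≤
    nrm μ (fun ω => f ω - g ω) + nrm μ fun ω => g ω - h ω := by
  have := nrm_add hμ (fun ω => f ω - g ω) fun ω => g ω - h ω
  simpa only [sub_add_sub_cancel] using this

lemma nrm_le_add (hμ : ∀ ω, 0 ≤ μ ω) (f g : Ω → ℝ) :
    nrm μ f ≤ nrm μ g + nrm μ fun ω => f ω - g ω := by
  have := nrm_add hμ g fun ω => f ω - g ω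
  simpa only [add_sub_cancel] using this

lemma nsq_add_le (hμ : ∀ ω, 0 ≤ μ ω) (f g : Ω → ℝ) :
    nsq μ (fun ω => f ω + g ω) ≤ 2 * nsq μ f + 2 * nsq μ g := by
  have := nsq_nn hμ fun ω => f ω - g ω
  rw [nsq_sub] at this
  rw [nsq_add]; linarith

lemma Pr.abs_ex_le (hμ : Pr μ) (f : Ω → ℝ) : |ex μ f| ≤ nrm μ f := by
  have h := ip_le hμ.nn f fun _ => 1
  have e : nrm μ (fun _ : Ω => (1 : ℝ)) = 1 := by
    simp only [nrm, nsq, one_pow, mul_one, hμ.one, Real.sqrt_one]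
  rwa [ip_const, one_mul, e, mul_one] at h

lemma Pr.sq_ex_le (hμ : Pr μ) (f : Ω → ℝ) : ex μ f ^ 2 ≤ nsq μ f := by
  rw [← nrm_sq hμ.nn, ← sq_abs]
  exact pow_le_pow_left₀ (abs_nonneg _) (hμ.abs_ex_le f) 2

lemma Pr.nsq_sub_const (hμ : Pr μ) (f : Ω → ℝ) (a : ℝ) :
    nsq μ (fun ω => f ω - a) = nsq μ f - 2 * a * ex μ f + a ^ 2 := by
  rw [nsq_sub, ip_const]
  have : nsq μ (fun _ : Ω => a) = a ^ 2 := by simp only [nsq, ← sum_mul, hμ.one, one_mul]
  rw [this]; ring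

lemma Pr.var_eq (hμ : Pr μ) (f : Ω → ℝ) : var μ f = nsq μ f - ex μ f ^ 2 := by
  rw [var, hμ.nsq_sub_const]; ring

lemma Pr.var_le_sub (hμ : Pr μ) (f : Ω → ℝ) (a : ℝ) : var μ f ≤ nsq μ fun ω => f ω - a := by
  rw [hμ.var_eq, hμ.nsq_sub_const]; nlinarith [sq_nonneg (a - ex μ f)]

lemma Pr.var_le (hμ : Pr μ) (f : Ω → ℝ) : var μ f ≤ nsq μ f := by
  simpa using hμ.var_le_sub f 0

lemma Pr.ex_center (hμ : Pr μ) (f : Ω → ℝ) : ex μ (fun ω => f ω - ex μ f) = 0 := by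
  rw [ex_sub, hμ.ex_const, sub_self]

lemma var_nn (hμ : ∀ ω, 0 ≤ μ ω) (f : Ω → ℝ) : 0 ≤ var μ f := nsq_nn hμ _

/-! ### kernels -/

lemma Ker.ex_ap (hk : Ker μ k) (f : Ω → ℝ) : ex μ (ap k f) = ex μ f := by
  simp only [ex, ap, mul_sum, ← mul_assoc]
  rw [sum_comm]
  simp only [← sum_mul, hk.inv]

lemma Ker.comp (hk : Ker μ k) (hl : Ker μ l) : Ker μ (comp k l) where
  one ω := by
    have := congrFun (ap_comp k l fun _ => 1) ω
    rw [ap_const hl.one, ap_const hk.one] at this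
    simpa only [ap, mul_one] using this
  inv ω' := by
    simp only [Op.comp, mul_sum, ← mul_assoc]
    rw [sum_comm]
    simp only [← sum_mul, hk.inv, hl.inv]

lemma ker_idk (μ : Ω → ℝ) : Ker μ idk where
  one ω := by simp [idk]
  inv ω' := by simp [idk]

lemma Pr.ker_ek (hμ : Pr μ) : Ker μ (ek μ) where
  one _ := hμ.one
  inv ω' := by simp only [ek, ← sum_mul, hμ.one, one_mul]

lemma Ker.word {L : List (Ω → Ω → ℝ)} (h : ∀ k ∈ L, Ker μ k) : Ker μ (word L) := by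
  induction L with
  | nil => exact ker_idk μ
  | cons k L ih =>
    exact (h k List.mem_cons_self).comp (ih fun l hl => h l (List.mem_cons_of_mem _ hl))

lemma Ker.comp_ek (hk : Ker μ k) : Op.comp k (ek μ) = ek μ := by
  funext ω ω'; simp only [Op.comp, ek, ← sum_mul, hk.one, one_mul]


lemma ker_of_rev (h1 : ∀ ω, ∑ ω', k ω ω' = 1) (hr : ∀ ω ω', μ ω * k ω ω' = μ ω' * k ω' ω) :
    Ker μ k where
  one := h1
  inv ω' := by simp only [fun ω => hr ω ω', ← mul_sum, h1, mul_one]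

lemma Proj.ker (hk : Proj μ k) : Ker μ k := ker_of_rev hk.one hk.rev

lemma ip_ap (hr : ∀ ω ω', μ ω * k ω ω' = μ ω' * k ω' ω) (f g : Ω → ℝ) :
    ip μ f (ap k g) = ip μ (ap k f) g := by
  simp only [ip, ap, mul_sum, sum_mul]
  rw [sum_comm]
  refine sum_congr rfl fun ω _ => sum_congr rfl fun ω' _ => ?_
  linear_combination (f ω' * g ω) * hr ω' ω

lemma Proj.ip_idem (hk : Proj μ k) (f g : Ω → ℝ) : ip μ f (ap k (ap k g)) = ip μ f (ap k g) := by
  rw [← ap_comp]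
  simp only [ip, ap, mul_sum]
  refine sum_congr rfl fun ω _ => sum_congr rfl fun ω' _ => ?_
  linear_combination (f ω * g ω') * hk.idem ω ω'

lemma Proj.nsq_ap (hk : Proj μ k) (f : Ω → ℝ) : nsq μ (ap k f) = ip μ f (ap k f) := by
  rw [← ip_self, ← ip_ap hk.rev, hk.ip_idem]

/-- Pythagoras. -/
lemma Proj.pyth (hk : Proj μ k) (f : Ω → ℝ) :
    nsq μ (fun ω => f ω - ap k f ω) = nsq μ f - nsq μ (ap k f) := by
  rw [nsq_sub, ← hk.nsq_ap]; ring

lemma Proj.ctr (hμ : ∀ ω, 0 ≤ μ ω) (hk : Proj μ k) : Ctr μ k := fun f => by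
  have := nsq_nn hμ fun ω => f ω - ap k f ω
  rw [hk.pyth] at this; linarith

/-- the residual is the distance to the range. -/
lemma Proj.res_le (hμ : ∀ ω, 0 ≤ μ ω) (hk : Proj μ k) (f g : Ω → ℝ) :
    nsq μ (fun ω => f ω - ap k f ω) ≤ nsq μ fun ω => f ω - ap k g ω := by
  have h := nsq_nn hμ fun ω => ap k f ω - ap k g ω
  rw [nsq_sub, ← ip_ap hk.rev, hk.ip_idem] at h
  rw [hk.pyth, nsq_sub]; linarith

lemma Proj.res_le_var (hμ : Pr μ) (hk : Proj μ k) (f : Ω → ℝ) :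
    nsq μ (fun ω => f ω - ap k f ω) ≤ var μ f := by
  have := hk.res_le hμ.nn f fun _ => ex μ f
  rwa [ap_const hk.one] at this

lemma proj_idk (μ : Ω → ℝ) : Proj μ idk where
  one := (ker_idk μ).one
  rev ω ω' := by by_cases h : ω = ω' <;> simp [idk, h, eq_comm]
  idem ω ω' := by rw [comp_idk]

lemma Pr.proj_ek (hμ : Pr μ) : Proj μ (ek μ) where
  one := hμ.ker_ek.one
  rev ω ω' := mul_comm _ _
  idem ω ω' := by rw [hμ.ker_ek.comp_ek]

/-- a Markov kernel fixing `μ` is a contraction. -/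
lemma Ker.ctr (hμ : ∀ ω, 0 ≤ μ ω) (hk : Ker μ k) (h0 : ∀ ω ω', 0 ≤ k ω ω') : Ctr μ k := fun f => by
  rw [nsq_eq_ex μ f, ← hk.ex_ap]
  exact ex_mono hμ fun ω => Pr.sq_ex_le ⟨h0 ω, hk.one ω⟩ f

lemma Ctr.comp (hk : Ctr μ k) (hl : Ctr μ l) : Ctr μ (comp k l) := fun f => by
  rw [ap_comp]; exact (hk _).trans (hl f)

lemma Ctr.nrm_le (hk : Ctr μ k) (f : Ω → ℝ) : nrm μ (ap k f) ≤ nrm μ f := nrm_mono (hk f)

lemma Con.ctr {δ : ℝ} (hμ : Pr μ) (hk : Ker μ k) (hc : Con μ k δ) (hδ : δ ^ 2 ≤ 1) :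
    Ctr μ k := fun f => by
  have h := hc _ (hμ.ex_center f)
  rw [ap_sub, ap_const hk.one, hμ.nsq_sub_const, hk.ex_ap, hμ.nsq_sub_const] at h
  have := hμ.sq_ex_le f
  nlinarith

lemma Con.mono {δ δ' : ℝ} (hμ : ∀ ω, 0 ≤ μ ω) (hc : Con μ k δ) (h : δ ^ 2 ≤ δ' ^ 2) :
    Con μ k δ' := fun f hf => (hc f hf).trans (mul_le_mul_of_nonneg_right h (nsq_nn hμ f))



lemma con_of_nrm {δ : ℝ} (hμ : ∀ ω, 0 ≤ μ ω) (hδ : 0 ≤ δ)
    (h : ∀ f, ex μ f = 0 → nrm μ (ap k f) ≤ δ * nrm μ f) : Con μ k δ :=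
  fun f hf => (nrm_le_mul hμ hδ).1 (h f hf)

lemma Con.nrm_le {δ : ℝ} (hμ : ∀ ω, 0 ≤ μ ω) (hδ : 0 ≤ δ) (hc : Con μ k δ) (hf : ex μ f = 0) :
    nrm μ (ap k f) ≤ δ * nrm μ f := (nrm_le_mul hμ hδ).2 (hc f hf)

/-- telescoping a word of contractions. -/
theorem nrm_word (hμ : ∀ ω, 0 ≤ μ ω) {L : List (Ω → Ω → ℝ)} (h : ∀ k ∈ L, Ctr μ k) (f : Ω → ℝ) :
    nrm μ (fun ω => f ω - ap (word L) f ω) ≤
      (L.map fun k => nrm μ fun ω => f ω - ap k f ω).sum := by
  induction L with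
  | nil => simp [word, nrm, nsq]
  | cons k L ih =>
    rw [List.map_cons, List.sum_cons, word, ap_comp]
    refine (nrm_tri hμ f (ap k f) _).trans (add_le_add le_rfl ?_)
    rw [← ap_sub]
    exact ((h k List.mem_cons_self).nrm_le _).trans (ih fun l hl => h l (List.mem_cons_of_mem _ hl))

lemma sq_list_sum_le (L : List ℝ) : L.sum ^ 2 ≤ L.length * (L.map (· ^ 2)).sum := by
  induction L with
  | nil => simp
  | cons a L ih =>
    simp only [List.sum_cons, List.map_cons, List.length_cons, Nat.cast_succ]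
    have hs : 0 ≤ (L.map (· ^ 2)).sum :=
      List.sum_nonneg (by simp only [List.mem_map]; rintro _ ⟨x, -, rfl⟩; positivity)
    rcases Nat.eq_zero_or_pos L.length with h0 | h0
    · rw [List.length_eq_zero_iff.1 h0]; simp
    · have hn : (0 : ℝ) < L.length := by exact_mod_cast h0
      refine le_of_mul_le_mul_left ?_ hn
      nlinarith [sq_nonneg (L.length * a - L.sum)]

/-- **variance from a contracting word.** -/
theorem var_le_word {δ : ℝ} (hμ : Pr μ) {L : List (Ω → Ω → ℝ)} (h1 : ∀ k ∈ L, Ker μ k)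
    (h : ∀ k ∈ L, Ctr μ k) (hδ : 0 ≤ δ) (hδ1 : δ ≤ 1) (hc : Con μ (word L) δ) (f : Ω → ℝ) :
    (1 - δ) ^ 2 * var μ f ≤ L.length * (L.map fun k => nsq μ fun ω => f ω - ap k f ω).sum := by
  set g : Ω → ℝ := fun ω => f ω - ex μ f with hg
  have e : ∀ k, Ker μ k → (fun ω => g ω - ap k g ω) = fun ω => f ω - ap k f ω := fun k hk => by
    rw [hg, ap_sub, ap_const hk.one]; funext ω; ring
  have a1 := nrm_le_add hμ.nn g (ap (word L) g)
  have a2 := hc.nrm_le hμ.nn hδ (hμ.ex_center f)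
  have a3 := nrm_word hμ.nn h g
  have a4 := sq_list_sum_le (L.map fun k => nrm μ fun ω => g ω - ap k g ω)
  rw [List.length_map, List.map_map] at a4
  have a5 : (L.map ((· ^ 2) ∘ fun k => nrm μ fun ω => g ω - ap k g ω)) =
      L.map fun k => nsq μ fun ω => f ω - ap k f ω :=
    List.map_congr_left fun k hk => by
      simp only [Function.comp, nrm_sq hμ.nn, e k (h1 k hk)]
  rw [a5] at a4
  refine le_trans ?_ a4
  rw [var, ← hg, ← nrm_sq hμ.nn, ← mul_pow]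
  refine pow_le_pow_left₀ (mul_nonneg (by linarith) (nrm_nn _ _)) ?_ 2
  rw [← hg] at a2
  linarith

end Crest.Agent.N337.Op
private theorem rz_ca2e4b9ce4 : type_of% @_root_.Crest.Agent.N337.Op.word.eq_def := @_root_.Crest.Agent.N337.Op.word.eq_def -- L40
private theorem rz_ad43e2eeab : type_of% @_root_.Crest.Agent.N337.Op.word.eq_1 := @_root_.Crest.Agent.N337.Op.word.eq_1 -- L40
end

-- ▼ part N337/Op/Tens
section

/-!
# Row 337: tensor products of kernels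

`tens k` on `∀ i, E i` with the product weight `pm μ`.  Contractions on mean-zero functions
tensorise exactly (`Con.tens`), hence `var_le_tens` (joint residuals); the joint residual of
projections is at most the sum of the one-coordinate residuals (`res_tens_le`).
-/

set_option autoImplicit false
set_option linter.unusedSectionVars false

namespace Crest.Agent.N337.Op

open Finset Function

variable {ι : Type} [Fintype ι] [DecidableEq ι] {E : ι → Type} [∀ i, Fintype (E i)]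
  [∀ i, DecidableEq (E i)]

/-- product weight. -/
def pm (μ : ∀ i, E i → ℝ) : (∀ i, E i) → ℝ := fun ω => ∏ i, μ i (ω i)

/-- tensor product of kernels. -/
def tens (k : ∀ i, E i → E i → ℝ) : (∀ i, E i) → (∀ i, E i) → ℝ :=
  fun ω ω' => ∏ i, k i (ω i) (ω' i)

/-- tensor product over the coordinates in `S`. -/
def tS (S : Finset ι) (k : ∀ i, E i → E i → ℝ) : (∀ i, E i) → (∀ i, E i) → ℝ :=
  tens fun i => if i ∈ S then k i else idk

variable {μ : ∀ i, E i → ℝ} {k l : ∀ i, E i → E i → ℝ}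

lemma sum_pi (g : ∀ i, E i → ℝ) : ∑ ω : ∀ i, E i, ∏ i, g i (ω i) = ∏ i, ∑ x, g i x := by
  have h := Finset.prod_univ_sum (fun i => (univ : Finset (E i))) g
  rw [Fintype.piFinset_univ] at h
  exact h.symm

lemma pm_nn (h : ∀ i x, 0 ≤ μ i x) (ω : ∀ i, E i) : 0 ≤ pm μ ω := prod_nonneg fun i _ => h i _

lemma pr_pm (h : ∀ i, Pr (μ i)) : Pr (pm μ) where
  nn := pm_nn fun i => (h i).nn
  one := by simp only [pm, sum_pi, fun i => (h i).one, prod_const_one]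

lemma comp_tens (k l : ∀ i, E i → E i → ℝ) :
    comp (tens k) (tens l) = tens fun i => comp (k i) (l i) := by
  funext ω ω''
  simp only [comp, tens, ← prod_mul_distrib]
  exact sum_pi fun i x => k i (ω i) x * l i x (ω'' i)

lemma tens_idk : tens (fun i => (idk : E i → E i → ℝ)) = idk := by
  funext ω ω'
  simp only [tens, idk, prod_boole, mem_univ, forall_true_left, funext_iff]

lemma tens_ek (μ : ∀ i, E i → ℝ) : tens (fun i => ek (μ i)) = ek (pm μ) := rfl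

lemma ker_tens (h : ∀ i, Ker (μ i) (k i)) : Ker (pm μ) (tens k) where
  one ω := by
    simp only [tens]
    rw [sum_pi fun i x => k i (ω i) x]; simp only [fun i => (h i).one, prod_const_one]
  inv ω' := by
    simp only [tens, pm, ← prod_mul_distrib]
    rw [sum_pi fun i x => μ i x * k i x (ω' i)]; simp only [fun i => (h i).inv]

lemma proj_tens (h : ∀ i, Proj (μ i) (k i)) : Proj (pm μ) (tens k) where
  one := (ker_tens fun i => (h i).ker).one
  rev ω ω' := by simp only [tens, pm, ← prod_mul_distrib, fun i => (h i).rev (ω i) (ω' i)]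
  idem ω ω' := by
    rw [comp_tens]
    simp only [tens, pm, ← prod_mul_distrib, fun i => (h i).idem (ω i) (ω' i)]


lemma tS_univ (k : ∀ i, E i → E i → ℝ) : tS univ k = tens k := by simp [tS]

lemma tS_empty (k : ∀ i, E i → E i → ℝ) : tS ∅ k = idk := by
  simp only [tS, notMem_empty, if_false, tens_idk]

lemma ker_tS (S : Finset ι) (h : ∀ i, Ker (μ i) (k i)) : Ker (pm μ) (tS S k) :=
  ker_tens fun i => by split_ifs; exacts [h i, ker_idk _]

lemma proj_tS (S : Finset ι) (h : ∀ i, Proj (μ i) (k i)) : Proj (pm μ) (tS S k) :=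
  proj_tens fun i => by split_ifs; exacts [h i, proj_idk _]

lemma tS_insert {S : Finset ι} {i : ι} (hi : i ∉ S) (k : ∀ i, E i → E i → ℝ) :
    tS (insert i S) k = comp (tS {i} k) (tS S k) := by
  simp only [tS, comp_tens]
  congr 1; funext j
  by_cases h : j = i
  · subst h; simp [hi]
  · simp [h]



/-- a one-coordinate kernel acts on the section. -/
lemma ap_tS_one (i : ι) (k : ∀ i, E i → E i → ℝ) (f : (∀ i, E i) → ℝ) (ω : ∀ i, E i) :
    ap (tS {i} k) f ω = ap (k i) (fun x => f (update ω i x)) (ω i) := by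
  have e : ∀ ω' : ∀ i, E i, tS {i} k ω ω' * f ω' =
      ∑ x, if update ω i x = ω' then k i (ω i) x * f (update ω i x) else 0 := fun ω' => by
    rw [sum_eq_single (ω' i) (fun x _ hx => if_neg fun h => hx (by rw [← h, update_self]))
      (by simp)]
    simp only [tS, tens]
    rw [← mul_prod_erase univ _ (mem_univ i)]
    simp only [mem_singleton, if_true]
    split_ifs with h
    · rw [h, prod_eq_one, mul_one]
      intro j hj
      have hj' := (mem_erase.1 hj).1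
      rw [if_neg hj', ← h, update_of_ne hj']; simp [idk]
    · obtain ⟨j, hj⟩ := Function.ne_iff.1 h
      have hj' : j ≠ i := by rintro rfl; simp at hj
      rw [update_of_ne hj'] at hj
      rw [prod_eq_zero (mem_erase.2 ⟨hj', mem_univ j⟩), mul_zero, zero_mul]
      simp [hj', idk, hj]
  simp only [ap, e]
  rw [sum_comm]
  simp

lemma ex_pm_sec (h : ∀ i, Pr (μ i)) (i : ι) (f : (∀ i, E i) → ℝ) :
    ex (pm μ) f = ex (pm μ) fun ω => ex (μ i) fun x => f (update ω i x) := by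
  rw [← (ker_tS {i} fun j => (h j).ker_ek).ex_ap f]
  congr 1; funext ω; exact ap_tS_one i _ f ω


/-- the one-coordinate residual is the mean of the residuals of the sections. -/
lemma res_tS_one (h : ∀ i, Pr (μ i)) (i : ι) (k : ∀ i, E i → E i → ℝ) (f : (∀ i, E i) → ℝ) :
    nsq (pm μ) (fun ω => f ω - ap (tS {i} k) f ω) = ex (pm μ) fun ω =>
      nsq (μ i) fun x => f (update ω i x) - ap (k i) (fun y => f (update ω i y)) x := by
  rw [nsq_eq_ex, ex_pm_sec h i]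
  simp only [ap_tS_one, update_idem, update_self, nsq_eq_ex]







theorem res_tS_le (h : ∀ i x, 0 ≤ μ i x) (hk : ∀ i, Proj (μ i) (k i)) (S : Finset ι)
    (f : (∀ i, E i) → ℝ) : nsq (pm μ) (fun ω => f ω - ap (tS S k) f ω) ≤
      ∑ i ∈ S, nsq (pm μ) fun ω => f ω - ap (tS {i} k) f ω := by
  induction S using Finset.induction_on with
  | empty => simp [tS_empty, nsq]
  | insert i S hi ih =>
    have pT : Proj (pm μ) (tS {i} k) := proj_tS _ hk
    have e1 : (fun ω => f ω - ap (tS (insert i S) k) f ω) = fun ω => (f ω - ap (tS {i} k) f ω) +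
        ap (tS {i} k) (fun ω => f ω - ap (tS S k) f ω) ω := by
      rw [tS_insert hi, ap_comp, ap_sub]; funext ω; ring
    have e2 : ip (pm μ) (fun ω => f ω - ap (tS {i} k) f ω)
        (ap (tS {i} k) fun ω => f ω - ap (tS S k) f ω) = 0 := by
      rw [ip_ap pT.rev, ip_comm, ap_sub, ip_sub_right, pT.ip_idem, sub_self]
    rw [e1, nsq_add, e2, sum_insert hi]
    have := pT.ctr (pm_nn h) fun ω => f ω - ap (tS S k) f ω
    linarith

/-- **joint ≤ sum** for projections. -/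
theorem res_tens_le (h : ∀ i, Pr (μ i)) (hk : ∀ i, Proj (μ i) (k i)) (f : (∀ i, E i) → ℝ) :
    nsq (pm μ) (fun ω => f ω - ap (tens k) f ω) ≤ ∑ i, ex (pm μ) fun ω =>
      nsq (μ i) fun x => f (update ω i x) - ap (k i) (fun y => f (update ω i y)) x := by
  have := res_tS_le (fun i => (h i).nn) hk univ f
  rw [tS_univ] at this
  simpa only [res_tS_one h] using this


end Crest.Agent.N337.Op
namespace Crest.Agent.N337.Op.Proj
end Crest.Agent.N337.Op.Proj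
end

-- ▼ part N337/Op/CE

/-!
# Row 337: conditional expectations, the rare-set projection, the overlap lemma

* `ce μ π`: conditional expectation given the map `π` (identity on null fibres);
* `ps μ S`: `f ↦ E f + 1_{Sᶜ} (f - E[f | Sᶜ])`;
* `Proj.res_eq`: the residual of a Markov projection is the mean conditional variance;
* `overlap`: total variation closeness of conditional laws gives a Poincaré inequality.
-/

set_option autoImplicit false
set_option linter.unusedSectionVars false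

namespace Crest.Agent.N337.Op

open Finset

/-- indicator. -/
def ind {α : Type} (S : α → Prop) [DecidablePred S] (ω : α) : ℝ := if S ω then 1 else 0

lemma ind_nn {α : Type} (S : α → Prop) [DecidablePred S] (ω : α) : 0 ≤ ind S ω := by
  unfold ind; split_ifs <;> norm_num

lemma ind_le_one {α : Type} (S : α → Prop) [DecidablePred S] (ω : α) : ind S ω ≤ 1 := by
  unfold ind; split_ifs <;> norm_num

variable {Ω : Type} [Fintype Ω] [DecidableEq Ω] {μ f g : Ω → ℝ} {k l : Ω → Ω → ℝ}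

lemma ker_ext (h : ∀ f, ap k f = ap l f) : k = l := by
  funext ω ω'
  simpa [ap] using congrFun (h fun x => if x = ω' then 1 else 0) ω

lemma ex_congr (h : ∀ ω, μ ω ≠ 0 → f ω = g ω) : ex μ f = ex μ g :=
  sum_congr rfl fun ω _ => by by_cases h0 : μ ω = 0 <;> simp [h0, h ω]

lemma ex_mono_ae (hμ : ∀ ω, 0 ≤ μ ω) (h : ∀ ω, μ ω ≠ 0 → f ω ≤ g ω) : ex μ f ≤ ex μ g :=
  sum_le_sum fun ω _ => by
    by_cases h0 : μ ω = 0
    · simp [h0]
    · exact mul_le_mul_of_nonneg_left (h ω h0) (hμ ω)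

lemma nsq_congr (h : ∀ ω, μ ω ≠ 0 → f ω = g ω) : nsq μ f = nsq μ g :=
  ex_congr fun ω h0 => by rw [h ω h0]

lemma nrm_congr (h : ∀ ω, μ ω ≠ 0 → f ω = g ω) : nrm μ f = nrm μ g := by
  simp only [nrm, nsq_congr h]

lemma var_congr (h : ∀ ω, μ ω ≠ 0 → f ω = g ω) : var μ f = var μ g :=
  nsq_congr fun ω h0 => by rw [h ω h0, ex_congr h]

lemma Proj.supp (hk : Proj μ k) {ω ω' : Ω} (h : μ ω ≠ 0) (h' : k ω ω' ≠ 0) : μ ω' ≠ 0 := by
  intro h0
  have := hk.rev ω ω'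
  rw [h0, zero_mul] at this
  exact mul_ne_zero h h' this

lemma Proj.ap_congr (hk : Proj μ k) (h : ∀ ω, μ ω ≠ 0 → f ω = g ω) (ω : Ω) (h0 : μ ω ≠ 0) :
    ap k f ω = ap k g ω := ex_congr fun ω' h' => h ω' (hk.supp h0 h')

lemma ap_eq_ex (k : Ω → Ω → ℝ) (f : Ω → ℝ) (ω : Ω) : ap k f ω = ex (k ω) f := rfl

/-- the residual of a Markov projection is the mean conditional variance. -/
theorem Proj.res_eq (hk : Proj μ k) (h0 : ∀ ω ω', 0 ≤ k ω ω') (f : Ω → ℝ) :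
    nsq μ (fun ω => f ω - ap k f ω) = ex μ fun ω => var (k ω) f := by
  have e : (fun ω => var (k ω) f) = fun ω => ap k (fun x => f x ^ 2) ω - ap k f ω ^ 2 :=
    funext fun ω => Pr.var_eq ⟨h0 ω, hk.one ω⟩ f
  rw [hk.pyth, e, ex_sub, hk.ker.ex_ap]; rfl

/-- law of total variance. -/
theorem Proj.var_split (hμ : Pr μ) (hk : Proj μ k) (f : Ω → ℝ) :
    var μ f = nsq μ (fun ω => f ω - ap k f ω) + var μ (ap k f) := by
  rw [hk.pyth, hμ.var_eq, hμ.var_eq, hk.ker.ex_ap]; ring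


/-! ### conditional expectation -/

section CE
variable {κ κ' : Type} [DecidableEq κ] [DecidableEq κ'] {π : Ω → κ} {π' : Ω → κ'}

/-- mass of a fibre. -/
def mass (μ : Ω → ℝ) (π : Ω → κ) (c : κ) : ℝ := ∑ ω, if π ω = c then μ ω else 0

/-- conditional law on a fibre. -/
noncomputable def cond (μ : Ω → ℝ) (π : Ω → κ) (c : κ) (ω : Ω) : ℝ :=
  if π ω = c then μ ω / mass μ π c else 0

/-- conditional expectation given `π`. -/
noncomputable def ce (μ : Ω → ℝ) (π : Ω → κ) (ω : Ω) : Ω → ℝ :=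
  if mass μ π (π ω) = 0 then idk ω else cond μ π (π ω)

lemma mass_nn (hμ : ∀ ω, 0 ≤ μ ω) (c : κ) : 0 ≤ mass μ π c :=
  sum_nonneg fun ω _ => by split_ifs; exacts [hμ ω, le_rfl]

lemma le_mass (hμ : ∀ ω, 0 ≤ μ ω) (ω : Ω) : μ ω ≤ mass μ π (π ω) := by
  have := single_le_sum (f := fun x => if π x = π ω then μ x else 0)
    (fun x _ => by split_ifs; exacts [hμ x, le_rfl]) (mem_univ ω)
  simpa [mass] using this

lemma mass_ne (hμ : ∀ ω, 0 ≤ μ ω) {ω : Ω} (h : μ ω ≠ 0) : mass μ π (π ω) ≠ 0 :=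
  (((hμ ω).lt_of_ne' h).trans_le (le_mass hμ ω)).ne'

lemma ce_of_ne (hμ : ∀ ω, 0 ≤ μ ω) {ω : Ω} (h : μ ω ≠ 0) : ce μ π ω = cond μ π (π ω) :=
  if_neg (mass_ne hμ h)

lemma cond_nn (hμ : ∀ ω, 0 ≤ μ ω) (c : κ) (ω : Ω) : 0 ≤ cond μ π c ω := by
  unfold cond; split_ifs; exacts [div_nonneg (hμ ω) (mass_nn hμ c), le_rfl]

lemma pr_cond (hμ : ∀ ω, 0 ≤ μ ω) {c : κ} (h : mass μ π c ≠ 0) : Pr (cond μ π c) where
  nn := cond_nn hμ c
  one := by
    have : ∀ ω, cond μ π c ω = (if π ω = c then μ ω else 0) / mass μ π c := fun ω => by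
      unfold cond; split_ifs <;> simp
    simp only [this, ← sum_div]; exact div_self h

lemma cond_supp {c : κ} {ω : Ω} (h : cond μ π c ω ≠ 0) : π ω = c ∧ μ ω ≠ 0 := by
  unfold cond at h
  split_ifs at h with h1
  · exact ⟨h1, fun h0 => h (by simp [h0])⟩
  · exact absurd rfl h

lemma mass_mul_ex_cond {c : κ} (h : mass μ π c ≠ 0) (f : Ω → ℝ) :
    mass μ π c * ex (cond μ π c) f = ∑ ω, if π ω = c then μ ω * f ω else 0 := by
  simp only [ex, mul_sum, cond]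
  refine sum_congr rfl fun ω _ => ?_
  split_ifs
  · field_simp
  · simp

lemma ce_nn (hμ : ∀ ω, 0 ≤ μ ω) (ω ω' : Ω) : 0 ≤ ce μ π ω ω' := by
  unfold ce; split_ifs
  · unfold idk; split_ifs <;> norm_num
  · exact cond_nn hμ _ _

lemma pr_ce (hμ : ∀ ω, 0 ≤ μ ω) (ω : Ω) : Pr (ce μ π ω) := by
  refine ⟨ce_nn hμ ω, ?_⟩
  unfold ce; split_ifs with h
  · simp [idk]
  · exact (pr_cond hμ h).one

lemma ce_supp {ω ω' : Ω} (h : ce μ π ω ω' ≠ 0) : π ω' = π ω := by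
  unfold ce at h
  split_ifs at h
  · by_contra h'; exact h (if_neg fun e => h' (by rw [e]))
  · exact (cond_supp h).1

/-- measurable factors come out. -/
lemma ap_ce_mul (hg : ∀ ω ω', π ω = π ω' → g ω = g ω') (f : Ω → ℝ) :
    ap (ce μ π) (fun ω => g ω * f ω) = fun ω => g ω * ap (ce μ π) f ω := by
  funext ω
  rw [ap_eq_ex, ap_eq_ex, ← ex_mul]
  exact ex_congr fun ω' h => by rw [hg _ _ (ce_supp h)]

lemma ap_ce_meas (hμ : ∀ ω, 0 ≤ μ ω) (hg : ∀ ω ω', π ω = π ω' → g ω = g ω') :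
    ap (ce μ π) g = g := by
  have := ap_ce_mul (μ := μ) hg fun _ => 1
  rw [ap_const fun ω => (pr_ce hμ ω).one] at this
  simpa only [mul_one] using this

lemma comp_ce (hμ : ∀ ω, 0 ≤ μ ω) (h : ∀ ω ω', π ω = π ω' → π' ω = π' ω') :
    comp (ce μ π) (ce μ π') = ce μ π' := by
  funext ω ω''
  show ap (ce μ π) (fun ω' => ce μ π' ω' ω'') ω = _
  by_cases h0 : mass μ π (π ω) = 0
  · simp [ap, ce, h0, idk]
  · rw [ap_eq_ex, ex_congr (g := fun _ => ce μ π' ω ω''), (pr_ce hμ ω).ex_const]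
    intro ω' h'
    have h1 := h _ _ (ce_supp h')
    rw [ce, if_neg h0] at h'
    have h2 : mass μ π' (π' ω') ≠ 0 := mass_ne hμ (cond_supp h').2
    simp only [ce, if_neg (h1 ▸ h2), h1]

theorem proj_ce (hμ : ∀ ω, 0 ≤ μ ω) (π : Ω → κ) : Proj μ (ce μ π) where
  one ω := (pr_ce hμ ω).one
  rev ω ω' := by
    have key : ∀ a b : Ω, μ a * ce μ π a b =
        if π a = π b then μ a * μ b / mass μ π (π a) else 0 := fun a b => by
      by_cases h0 : μ a = 0
      · simp [h0]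
      · rw [ce_of_ne hμ h0, cond]
        by_cases h : π a = π b
        · rw [if_pos h.symm, if_pos h, mul_div_assoc]
        · rw [if_neg (Ne.symm h), if_neg h, mul_zero]
    rw [key, key]
    by_cases h : π ω = π ω'
    · rw [if_pos h, if_pos h.symm, h, mul_comm]
    · rw [if_neg h, if_neg (Ne.symm h)]
  idem ω ω' := by rw [comp_ce hμ fun _ _ h => h]

lemma ex_mul_ce (hμ : ∀ ω, 0 ≤ μ ω) (hg : ∀ ω ω', π ω = π ω' → g ω = g ω') (f : Ω → ℝ) :
    ex μ (fun ω => g ω * ap (ce μ π) f ω) = ex μ fun ω => g ω * f ω := by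
  rw [← ap_ce_mul hg, (proj_ce hμ π).ker.ex_ap]

/-- the residual is at most the distance to any measurable function. -/
lemma res_ce_le (hμ : ∀ ω, 0 ≤ μ ω) (hg : ∀ ω ω', π ω = π ω' → g ω = g ω') (f : Ω → ℝ) :
    nsq μ (fun ω => f ω - ap (ce μ π) f ω) ≤ nsq μ fun ω => f ω - g ω := by
  have := (proj_ce hμ π).res_le hμ f g
  rwa [ap_ce_meas hμ hg] at this


lemma res_ce (hμ : ∀ ω, 0 ≤ μ ω) (π : Ω → κ) (f : Ω → ℝ) :
    nsq μ (fun ω => f ω - ap (ce μ π) f ω) = ex μ fun ω => var (cond μ π (π ω)) f := by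
  rw [(proj_ce hμ π).res_eq (ce_nn hμ)]
  exact ex_congr fun ω h => by rw [ce_of_ne hμ h]

lemma ap_ce_ae (hμ : ∀ ω, 0 ≤ μ ω) (f : Ω → ℝ) {ω : Ω} (h : μ ω ≠ 0) :
    ap (ce μ π) f ω = ex (cond μ π (π ω)) f := by rw [ap_eq_ex, ce_of_ne hμ h]

/-- conditioning on an event of probability `≥ c` moves bounded means by a covariance. -/
lemma abs_cond_sub (hμ : Pr μ) (ψ : Ω → Prop) [DecidablePred ψ] (π : Ω → κ) {h : Ω → ℝ}
    (hm : ∀ ω ω', π ω = π ω' → h ω = h ω') (h1 : ∀ ω, |h ω| ≤ 1) :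
    |ex μ (fun ω => ind ψ ω * h ω) - ex μ (ind ψ) * ex μ h| ≤
      Real.sqrt (var μ (ap (ce μ π) (ind ψ))) := by
  have e : ex μ (fun ω => ind ψ ω * h ω) - ex μ (ind ψ) * ex μ h =
      ip μ h fun ω => ap (ce μ π) (ind ψ) ω - ex μ (ap (ce μ π) (ind ψ)) := by
    rw [ip_sub_right, ip_const, (proj_ce hμ.nn π).ker.ex_ap, ip_eq_ex, ex_mul_ce hμ.nn hm]
    simp only [mul_comm]
  have h2 : nrm μ h ≤ 1 := by
    rw [nrm_le_iff hμ.nn zero_le_one, nsq_eq_ex, ← hμ.ex_const (1 ^ 2)]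
    exact ex_mono hμ.nn fun ω => sq_le_sq' (abs_le.1 (h1 ω)).1 (abs_le.1 (h1 ω)).2
  rw [e]
  refine (ip_le hμ.nn _ _).trans ?_
  exact (mul_le_mul_of_nonneg_right h2 (nrm_nn _ _)).trans_eq (one_mul _)

end CE

/-! ### the rare-set projection -/

section PS
variable (S : Ω → Prop) [DecidablePred S]

/-- `f ↦ E f + 1_{Sᶜ} (f - E[f | Sᶜ])`. -/
noncomputable def ps (μ : Ω → ℝ) (ω ω' : Ω) : ℝ :=
  μ ω' + (1 - ind S ω) * (idk ω ω' - (1 - ind S ω') * μ ω' / (1 - ex μ (ind S)))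

/-- `E[f | Sᶜ]`. -/
noncomputable def exc (μ f : Ω → ℝ) : ℝ :=
  ex μ (fun ω => (1 - ind S ω) * f ω) / (1 - ex μ (ind S))

lemma ap_ps (μ f : Ω → ℝ) (ω : Ω) :
    ap (ps S μ) f ω = ex μ f + (1 - ind S ω) * (f ω - exc S μ f) := by
  have h := congrFun (ap_idk f) ω
  simp only [ap, ps, exc, ex, add_mul, sum_add_distrib, sum_div] at h ⊢
  rw [← h, ← sum_sub_distrib, mul_sum]
  congr 1
  exact sum_congr rfl fun _ _ => by ring

lemma ind_sq (ω : Ω) : ind S ω * ind S ω = ind S ω := by unfold ind; split_ifs <;> norm_num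

variable {S}

lemma Pr.ex_compl (hμ : Pr μ) : ex μ (fun ω => 1 - ind S ω) = 1 - ex μ (ind S) := by
  rw [ex_sub, hμ.ex_const]

lemma Pr.ex_ps_aux (hμ : Pr μ) (hS : ex μ (ind S) < 1) (f : Ω → ℝ) :
    ex μ (fun ω => (1 - ind S ω) * (f ω - exc S μ f)) = 0 := by
  have : (fun ω => (1 - ind S ω) * (f ω - exc S μ f)) =
      fun ω => (1 - ind S ω) * f ω - exc S μ f * (1 - ind S ω) := by funext ω; ring
  rw [this, ex_sub, ex_mul, hμ.ex_compl, exc, div_mul_cancel₀ _ (by linarith), sub_self]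

theorem proj_ps (hμ : Pr μ) (hS : ex μ (ind S) < 1) : Proj μ (ps S μ) := by
  have hq : 1 - ex μ (ind S) ≠ 0 := by linarith
  have h1 : ∀ a : ℝ, exc S μ (fun _ => a) = a := fun a => by
    simp only [exc, mul_comm _ a]; rw [ex_mul, hμ.ex_compl, mul_div_cancel_right₀ _ hq]
  refine ⟨fun ω => ?_, fun ω ω' => ?_, fun ω ω' => ?_⟩
  · have := ap_ps S μ (fun _ => 1) ω
    rw [hμ.ex_const, h1] at this
    simpa [ap] using this
  · unfold ps idk
    by_cases h : ω = ω'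
    · subst h; rfl
    · rw [if_neg h, if_neg (Ne.symm h)]; ring
  · congr 1
    refine congrFun (congrFun (ker_ext fun f => ?_) ω) ω'
    have e1 : ap (ps S μ) f = fun ω => ex μ f + (1 - ind S ω) * (f ω - exc S μ f) :=
      funext (ap_ps S μ f)
    have e2 : ex μ (ap (ps S μ) f) = ex μ f := by
      rw [e1, ex_add, hμ.ex_const, hμ.ex_ps_aux hS, add_zero]
    have e3 : exc S μ (ap (ps S μ) f) = ex μ f := by
      have : (fun ω => (1 - ind S ω) * ap (ps S μ) f ω) =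
          fun ω => ex μ f * (1 - ind S ω) + (1 - ind S ω) * (f ω - exc S μ f) := by
        funext ω; rw [ap_ps]; linear_combination (f ω - exc S μ f) * ind_sq S ω
      rw [exc, this, ex_add, hμ.ex_ps_aux hS, ex_mul, hμ.ex_compl, add_zero,
        mul_div_cancel_right₀ _ hq]
    funext x
    rw [ap_comp, ap_ps, e2, e3, ap_ps]
    linear_combination (f x - exc S μ f) * ind_sq S x

/-- the residual of `ps` lives on `S`. -/
theorem res_ps_le (hμ : Pr μ) (hS : ex μ (ind S) ≤ 1 / 2) (f : Ω → ℝ) :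
    nsq μ (fun ω => f ω - ap (ps S μ) f ω) ≤ 2 * ex μ fun ω => ind S ω * (f ω - ex μ f) ^ 2 := by
  set s := ex μ (ind S) with hs
  set A := ex μ fun ω => ind S ω * (f ω - ex μ f) ^ 2 with hA
  set c := exc S μ f - ex μ f with hc
  have s0 : 0 ≤ s := ex_nn hμ.nn (ind_nn S)
  have A0 : 0 ≤ A := ex_nn hμ.nn fun ω => mul_nonneg (ind_nn S ω) (sq_nonneg _)
  have e1 : nsq μ (fun ω => f ω - ap (ps S μ) f ω) = A + c ^ 2 * (1 - s) := by
    rw [hs, ← hμ.ex_compl, ← ex_mul, hA, ← ex_add, nsq_eq_ex]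
    congr 1; funext ω
    rw [ap_ps, hc]; unfold ind; split_ifs <;> ring
  have e2 : c * (1 - s) = -ip μ (ind S) fun ω => ind S ω * (f ω - ex μ f) := by
    have h1 := hμ.ex_ps_aux (S := S) (by linarith) f
    have h2 := hμ.ex_center f
    have : (fun ω => (1 - ind S ω) * (f ω - exc S μ f)) = fun ω => ((f ω - ex μ f) -
        ind S ω * (ind S ω * (f ω - ex μ f))) - c * (1 - ind S ω) := by
      funext ω; rw [hc]; linear_combination (f ω - ex μ f) * ind_sq S ω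
    rw [this, ex_sub, ex_sub, h2, ex_mul, hμ.ex_compl] at h1
    rw [ip_eq_ex]; linarith
  have e3 := cs hμ.nn (ind S) fun ω => ind S ω * (f ω - ex μ f)
  have e4 : nsq μ (ind S) = s := by simp only [nsq, sq, ind_sq]; rfl
  have e5 : nsq μ (fun ω => ind S ω * (f ω - ex μ f)) = A := by
    simp only [nsq, mul_pow, sq (ind S _), ind_sq]; rfl
  rw [e4, e5, ← neg_sq, ← e2] at e3
  rw [e1]
  have : c ^ 2 * (1 - s) * (1 - s) ≤ A * (1 - s) := by nlinarith
  have := le_of_mul_le_mul_right this (by linarith)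
  linarith

end PS

/-! ### overlap -/

lemma overlap_aux {β : Type} [Fintype β] {a b : β → ℝ} (ha : Pr a) (hb : Pr b) {d : ℝ}
    (h : ∀ h : β → ℝ, (∀ x, |h x| ≤ 1) → |ex a h - ex b h| ≤ 2 * d) (u v : ℝ) (h0 : β → ℝ) :
    (1 - d) * (u - v) ^ 2 ≤ 2 * ex a (fun x => (u - h0 x) ^ 2) + 2 * ex b fun x => (v - h0 x) ^ 2 := by
  have h1 := h (fun x => if a x ≤ b x then -1 else 1) fun x => by split_ifs <;> simp
  have h2 : 1 - d ≤ ∑ x, min (a x) (b x) := by
    have e : ∑ x, 2 * min (a x) (b x) = ∑ x, ((a x + b x) - (a x * (if a x ≤ b x then -1 else 1) -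
        b x * if a x ≤ b x then -1 else 1)) := sum_congr rfl fun x _ => by
      split_ifs with hx
      · rw [min_eq_left hx]; ring
      · rw [min_eq_right (le_of_not_ge hx)]; ring
    rw [← mul_sum, sum_sub_distrib, sum_sub_distrib, sum_add_distrib, ha.one, hb.one] at e
    have := (abs_le.1 h1).2
    simp only [ex] at this
    linarith
  refine (mul_le_mul_of_nonneg_right h2 (sq_nonneg _)).trans ?_
  simp only [ex, mul_sum, sum_mul, ← sum_add_distrib]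
  refine sum_le_sum fun x _ => ?_
  have m0 : 0 ≤ min (a x) (b x) := le_min (ha.nn x) (hb.nn x)
  have m1 := mul_le_mul_of_nonneg_right (min_le_left (a x) (b x)) (sq_nonneg (u - h0 x))
  have m2 := mul_le_mul_of_nonneg_right (min_le_right (a x) (b x)) (sq_nonneg (v - h0 x))
  nlinarith [mul_nonneg m0 (sq_nonneg (u - h0 x + (v - h0 x)))]

/-- image of a weight. -/
lemma ex_mass {β : Type} [Fintype β] [DecidableEq β] (μ : Ω → ℝ) (η : Ω → β) (h : β → ℝ) :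
    ex (mass μ η) h = ex μ fun ω => h (η ω) := by
  simp only [ex, mass, sum_mul, ite_mul, zero_mul]
  rw [sum_comm]; simp

lemma pr_mass {β : Type} [Fintype β] [DecidableEq β] (hμ : Pr μ) (η : Ω → β) :
    Pr (mass μ η) where
  nn := mass_nn hμ.nn
  one := by simpa only [ex, mul_one, hμ.one] using ex_mass μ η fun _ => 1

/-- **overlap lemma**: if the laws of `η` given `X = x`, `x ∈ T`, are `d`-close, a function of `X`
is almost constant on `T` as soon as it is close to a function of `η`. -/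
theorem overlap {α β : Type} [DecidableEq α] [Fintype β] [DecidableEq β] (hμ : ∀ ω, 0 ≤ μ ω)
    (X : Ω → α) (η : Ω → β) (T : α → Prop) [DecidablePred T] {d : ℝ}
    (hTV : ∀ x x', T x → T x' → mass μ X x ≠ 0 → mass μ X x' ≠ 0 → ∀ h : β → ℝ, (∀ b, |h b| ≤ 1) →
      |ex (cond μ X x) (fun ω => h (η ω)) - ex (cond μ X x') fun ω => h (η ω)| ≤ 2 * d)
    (φ : α → ℝ) (h : β → ℝ) :
    (1 - d) * (ex μ (fun ω => ind T (X ω)) * ex μ (fun ω => ind T (X ω) * φ (X ω) ^ 2) -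
      ex μ (fun ω => ind T (X ω) * φ (X ω)) ^ 2) ≤
      2 * ex μ (fun ω => ind T (X ω)) * ex μ fun ω => ind T (X ω) * (φ (X ω) - h (η ω)) ^ 2 := by
  set G : Ω → ℝ := ap (ce μ X) fun ω => (φ (X ω) - h (η ω)) ^ 2 with hG
  set t : Ω → ℝ := fun ω => ind T (X ω) with ht
  have hG' : ∀ ω, μ ω ≠ 0 → G ω = ex (mass (cond μ X (X ω)) η) fun b => (φ (X ω) - h b) ^ 2 :=
    fun ω h0 => by
      rw [hG, ap_ce_ae hμ _ h0, ex_mass]
      exact ex_congr fun ω' h' => by rw [(cond_supp h').1]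
  have key : ∀ ω ω', μ ω * t ω * (μ ω' * t ω') * ((1 - d) * (φ (X ω) - φ (X ω')) ^ 2) ≤
      μ ω * t ω * (μ ω' * t ω') * (2 * G ω + 2 * G ω') := fun ω ω' => by
    by_cases h0 : μ ω = 0
    · simp [h0]
    by_cases h0' : μ ω' = 0
    · simp [h0']
    by_cases h1 : T (X ω)
    swap
    · simp [ht, ind, h1]
    by_cases h1' : T (X ω')
    swap
    · simp [ht, ind, h1']
    refine mul_le_mul_of_nonneg_left ?_
      (mul_nonneg (mul_nonneg (hμ _) (ind_nn _ _)) (mul_nonneg (hμ _) (ind_nn _ _)))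
    rw [hG' ω h0, hG' ω' h0']
    refine overlap_aux (pr_mass (pr_cond hμ (mass_ne hμ h0)) η)
      (pr_mass (pr_cond hμ (mass_ne hμ h0')) η) (fun h' hh => ?_) _ _ h
    rw [ex_mass, ex_mass]
    exact hTV _ _ h1 h1' (mass_ne hμ h0) (mass_ne hμ h0') h' hh
  have hs := sum_le_sum fun ω (_ : ω ∈ univ) => sum_le_sum fun ω' (_ : ω' ∈ univ) => key ω ω'
  have e0 : ex μ (fun ω => t ω * (φ (X ω) - h (η ω)) ^ 2) = ex μ fun ω => t ω * G ω :=
    (ex_mul_ce hμ (fun _ _ e => by simp only [ht, e]) _).symm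
  have e1 : ∑ ω, ∑ ω', μ ω * t ω * (μ ω' * t ω') * (2 * G ω + 2 * G ω') =
      4 * (ex μ t * ex μ fun ω => t ω * G ω) := by
    have : ∀ ω ω', μ ω * t ω * (μ ω' * t ω') * (2 * G ω + 2 * G ω') =
        2 * (μ ω * (t ω * G ω) * (μ ω' * t ω')) + 2 * (μ ω * t ω * (μ ω' * (t ω' * G ω'))) :=
      fun _ _ => by ring
    simp only [this, sum_add_distrib, ← mul_sum, ← sum_mul, ex]; ring
  have e2 : ∑ ω, ∑ ω', μ ω * t ω * (μ ω' * t ω') * ((1 - d) * (φ (X ω) - φ (X ω')) ^ 2) =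
      2 * ((1 - d) * (ex μ t * ex μ (fun ω => t ω * φ (X ω) ^ 2) -
        ex μ (fun ω => t ω * φ (X ω)) ^ 2)) := by
    have : ∀ ω ω', μ ω * t ω * (μ ω' * t ω') * ((1 - d) * (φ (X ω) - φ (X ω')) ^ 2) =
        (1 - d) * (μ ω * (t ω * φ (X ω) ^ 2) * (μ ω' * t ω')) +
        (1 - d) * (μ ω * t ω * (μ ω' * (t ω' * φ (X ω') ^ 2))) -
        2 * (1 - d) * (μ ω * (t ω * φ (X ω)) * (μ ω' * (t ω' * φ (X ω')))) := fun _ _ => by ring
    simp only [this, sum_add_distrib, sum_sub_distrib, ← mul_sum, ← sum_mul, ex]; ring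
  rw [e1, e2] at hs
  rw [e0]; linarith

end Crest.Agent.N337.Op
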